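import Vale.Agent.P353.Z.U.All
import Vale.Agent.P353.U.One
import Vale.Agent.P353.U.Sm

/-!
The combined theorem: the exact dimension `n` of the space of zero-energy states of the `SU(N)` BFSS
model is at most `p(N)`, and it is `1` for `N = 2`.
-/

namespace Vale.Agent.P353Main

open MeasureTheory Vale.Agent.P353.BFSS

/-- A finite family spanning, almost everywhere, all functions with property `P` can be thinned out
to a linearly independent one. -/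
theorem exists_basis_ae {n : ℕ} {α F : Type*} [MeasurableSpace α] (μ : Measure α) [AddCommGroup F]
    [Module ℂ F] (P : (α → F) → Prop) (Φ : Fin n → α → F) (hP : ∀ i, P (Φ i))
    (hspan : ∀ Ψ, P Ψ → ∃ c : Fin n → ℂ, ∀ᵐ x ∂μ, Ψ x = ∑ i, c i • Φ i x) :
    ∃ m : ℕ, m ≤ n ∧ ∃ Φ' : Fin m → α → F, (∀ i, P (Φ' i)) ∧
      (∀ c : Fin m → ℂ, (∀ᵐ x ∂μ, ∑ i, c i • Φ' i x = 0) → c = 0) ∧
      (∀ Ψ, P Ψ → ∃ c : Fin m → ℂ, ∀ᵐ x ∂μ, Ψ x = ∑ i, c i • Φ' i x) := by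
  classical
  have hex : ∃ m : ℕ, ∃ Φ' : Fin m → α → F, (∀ i, P (Φ' i)) ∧
      ∀ Ψ, P Ψ → ∃ c : Fin m → ℂ, ∀ᵐ x ∂μ, Ψ x = ∑ i, c i • Φ' i x := ⟨n, Φ, hP, hspan⟩
  obtain ⟨m, hmn, hm, hmin⟩ : ∃ m : ℕ, m ≤ n ∧ (∃ Φ' : Fin m → α → F, (∀ i, P (Φ' i)) ∧
      ∀ Ψ, P Ψ → ∃ c : Fin m → ℂ, ∀ᵐ x ∂μ, Ψ x = ∑ i, c i • Φ' i x) ∧
      ∀ k < m, ¬ ∃ Φ' : Fin k → α → F, (∀ i, P (Φ' i)) ∧
        ∀ Ψ, P Ψ → ∃ c : Fin k → ℂ, ∀ᵐ x ∂μ, Ψ x = ∑ i, c i • Φ' i x :=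
    ⟨Nat.find hex, Nat.find_min' hex ⟨Φ, hP, hspan⟩, Nat.find_spec hex,
      fun k hk => Nat.find_min hex hk⟩
  obtain ⟨Φ', hP', hs'⟩ := hm
  refine ⟨m, hmn, Φ', hP', ?_, hs'⟩
  intro c hc
  by_contra hne
  obtain ⟨i0, hi0⟩ : ∃ i, c i ≠ 0 := by
    by_contra h
    push Not at h
    exact hne (funext h)
  cases m with
  | zero => exact i0.elim0
  | succ m =>
    refine hmin m (Nat.lt_succ_self m) ⟨fun j => Φ' (i0.succAbove j), fun j => hP' _, ?_⟩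
    intro Ψ hΨ
    obtain ⟨e, he⟩ := hs' Ψ hΨ
    refine ⟨fun j => e (i0.succAbove j) - e i0 * (c i0)⁻¹ * c (i0.succAbove j), ?_⟩
    filter_upwards [hc, he] with x hx1 hx2
    rw [Fin.sum_univ_succAbove _ i0] at hx1
    rw [hx2, Fin.sum_univ_succAbove _ i0]
    have h1 : Φ' i0 x = -((c i0)⁻¹ • ∑ j, c (i0.succAbove j) • Φ' (i0.succAbove j) x) := by
      have h2 : c i0 • Φ' i0 x = -∑ j, c (i0.succAbove j) • Φ' (i0.succAbove j) x :=
        eq_neg_of_add_eq_zero_left hx1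
      rw [← smul_neg, ← h2, smul_smul, inv_mul_cancel₀ hi0, one_smul]
    rw [h1]
    simp only [sub_smul, Finset.sum_sub_distrib, smul_neg, Finset.smul_sum, smul_smul, mul_assoc]
    abel

/-- The combined theorem. -/
theorem main {N d : ℕ} {F : Type*} [NormedAddCommGroup F]
    [InnerProductSpace ℂ F] (M : Model N d F) :
    ∃ (n : ℕ) (Φ : Fin n → Conf d → F), n ≤ Fintype.card (Nat.Partition N) ∧
      (N = 2 → n = 1 ∧ ∀ i (s : ℝ), 0 ≤ s → s < 9 →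
        Integrable (fun x => ‖x‖ ^ s * ‖Φ i x‖ ^ 2) (leb d)) ∧
      (∀ i, M.IsZeroEnergyState (Φ i)) ∧
      (∀ c : Fin n → ℂ, (∀ᵐ x ∂leb d, ∑ i, c i • Φ i x = 0) → c = 0) ∧
      ∀ Ψ, M.IsZeroEnergyState Ψ →
        ∃ c : Fin n → ℂ, ∀ᵐ x ∂leb d, Ψ x = ∑ i, c i • Φ i x := by
  by_cases hN : N = 2
  · subst hN
    have hd : d = 3 := by
      have := M.dim_eq
      omega
    subst hd
    have hF : FiniteDimensional ℂ F := M.toOld.finiteDimensional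
    obtain ⟨Φ, h1, h2, h3, h4⟩ := threshold_of M (Vale.Agent.P353.U.sm M.toOld.toSetup)
    refine ⟨1, fun _ => Φ, Fintype.card_pos, fun _ => ⟨rfl, fun _ s hs hs9 => h4 s hs hs9⟩,
      fun _ => h1, ?_, ?_⟩
    · intro c hc
      have hc0 : c 0 = 0 := by
        by_contra h
        apply h2
        filter_upwards [hc] with x hx
        simpa [h] using hx
      funext i
      rw [Subsingleton.elim i 0, hc0]
      rfl
    · intro Ψ hΨ
      obtain ⟨c, hc⟩ := h3 Ψ hΨ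
      refine ⟨fun _ => c, ?_⟩
      filter_upwards [hc] with x hx
      simpa using hx
  · obtain ⟨n, Φ, hn, hΦ, hs⟩ := Vale.Agent.P353.Z.U.All.bound_model M
    obtain ⟨m, hm, Φ', h1, h2, h3⟩ := exists_basis_ae (leb d) M.IsZeroEnergyState Φ hΦ hs
    exact ⟨m, Φ', hm.trans hn, fun h => absurd h hN, h1, h2, h3⟩

end Vale.Agent.P353Main
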